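import Vale.Agent.P196.Full.Tiles.Rank.Split
import Vale.Agent.P196.Full.Tiles.Tower
import Vale.Agent.P196.Full.Coinv.Criterion

/-!
# P196: the areas of the tile tower are bounded

A locally constant observable looks at a finite window, so its sum over a supertile of a high level
is a sum over two generations of children of a function of the tiles, plus terms seen at the
boundaries of blocks, where the tiles take boundedly many values.
-/

namespace Vale.Agent.P196.Full.Tiles

attribute [local irreducible] K lvl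

/-! ### Tiles near the boundary of a block -/

/-- Colours near the boundary of a block. -/
def GCol.Small : GCol → Prop
  | .outer _ => True
  | .tag _ _ => False
  | .side _ _ v => v ≤ 2

theorem GCol.Small.tr {g : GCol} (h : g.Small) : g.tr.Small := by
  cases g <;> simp_all [GCol.tr, GCol.Small]

theorem geoH_small {M x y : ℕ} (hM : K + 3 ≤ M) (hx : x ≤ 2 * M) (hy : y < 2 * M)
    (h : x ≤ 2 ∨ 2 * M ≤ x + 2 ∨ y ≤ 1 ∨ 2 * M ≤ y + 2) : (geoH M x y).Small := by
  unfold geoH
  by_cases h0 : x = 0 ∨ x = 2 * M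
  · rw [if_pos h0]; trivial
  rw [if_neg h0, if_neg (by omega)]
  split_ifs <;> (show (_ : ℕ) ≤ 2; omega)

/-- Codes of small colours. -/
abbrev SG : Type := Fin 4 ⊕ Fin 4 × Bool × Fin 3

/-- The colour of a code. -/
def SG.col : SG → GCol
  | .inl k => .outer k
  | .inr (z, hi, v) => .side z hi v

theorem GCol.Small.exists_code {g : GCol} (h : g.Small) : ∃ k : SG, k.col = g := by
  cases g with
  | outer k => exact ⟨.inl k, rfl⟩
  | tag a b => exact h.elim
  | side z hi v =>
      exact ⟨.inr (z, hi, ⟨v, Nat.lt_succ_of_le h⟩), rfl⟩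

/-- Codes of small tiles. -/
abbrev SKey : Type :=
  (SG × (HL → Bool)) × (SG × (HL → Bool)) × (SG × (VL → Bool)) × (SG × (VL → Bool))

/-- The tile of a code. -/
def SKey.tile (k : SKey) : Tile where
  l := ⟨k.1.1.col, k.1.2⟩
  r := ⟨k.2.1.1.col, k.2.1.2⟩
  d := ⟨k.2.2.1.1.col, k.2.2.1.2⟩
  u := ⟨k.2.2.2.1.col, k.2.2.2.2⟩

theorem child_small (f : (Sg → Bool) → Bool) {M i j : ℕ} (hM : K + 3 ≤ M) (hi : i < 2 * M)
    (hj : j < 2 * M) (h : i ≤ 1 ∨ 2 * M ≤ i + 2 ∨ j ≤ 1 ∨ 2 * M ≤ j + 2) (T : Tile) :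
    ∃ k : SKey, k.tile = child f M T i j := by
  obtain ⟨a, ha⟩ := (geoH_small hM (x := i) (by omega) hj (by omega)).exists_code
  obtain ⟨b, hb⟩ := (geoH_small hM (x := i + 1) (by omega) hj (by omega)).exists_code
  obtain ⟨c, hc⟩ := (geoH_small hM (x := j) (y := i) (by omega) hi (by omega)).tr.exists_code
  obtain ⟨d, hd⟩ := (geoH_small hM (x := j + 1) (y := i) (by omega) hi (by omega)).tr.exists_code
  refine ⟨((a, fillH f M T i j), (b, fillH f M T (i + 1) j), (c, fillV f M T i j),
    (d, fillV f M T i (j + 1))), ?_⟩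
  simp only [SKey.tile, child, ha, hb, hc, hd, geoV]

theorem K_add_three_le_lvl (s : ℕ) : K + 3 ≤ lvl s := by
  have := K_le_lvl s
  have := K_bounds
  omega

/-! ### Points, supertiles and sums -/

/-- A locally constant function looks at a finite window. -/
theorem exists_window {β : Type} {f : Pts → β} (hf : IsLocallyConstant f) :
    ∃ R : ℕ, ∀ x y : Pts,
      (∀ z : ℤ × ℤ, z.1.natAbs ≤ R → z.2.natAbs ≤ R → tilesOf x z = tilesOf y z) → f x = f y := by
  classical
  have hI : ∀ x : Pts, ∃ I : Finset (ℤ × ℤ), ∀ y : Pts, (∀ z ∈ I, y.1 z = x.1 z) → f y = f x := by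
    intro x
    obtain ⟨V, hV, hVf⟩ := isOpen_induced_iff.1 (hf.isOpen_fiber (f x))
    have hx : x.1 ∈ V := by
      have : x ∈ {y | f y = f x} := rfl
      rw [← hVf] at this
      exact this
    obtain ⟨I, u, hu, hsub⟩ := isOpen_pi_iff.1 hV x.1 hx
    refine ⟨I, fun y hy => ?_⟩
    have : y ∈ Subtype.val ⁻¹' V := hsub fun z hz => by
      rw [hy z hz]
      exact (hu z hz).2
    rw [hVf] at this
    exact this
  choose I hI using hI
  have hopen : ∀ x : Pts, IsOpen {y : Pts | ∀ z ∈ I x, y.1 z = x.1 z} := fun x => by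
    simp only [Set.ofPred_forall]
    exact isOpen_biInter_finset fun z _ =>
      (isOpen_discrete {x.1 z}).preimage (f := fun y : Pts => y.1 z)
        ((continuous_apply z).comp continuous_subtype_val)
  obtain ⟨t, ht⟩ := isCompact_univ.elim_finite_subcover _ hopen
    fun x _ => Set.mem_iUnion.2 ⟨x, fun z _ => rfl⟩
  refine ⟨(t.biUnion I).sup fun z => max z.1.natAbs z.2.natAbs, fun x y hxy => ?_⟩
  obtain ⟨x₀, hx₀, hx⟩ := Set.mem_iUnion₂.1 (ht (Set.mem_univ x))
  rw [hI x₀ x hx, hI x₀ y fun z hz => ?_]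
  have hle := Finset.le_sup (f := fun z : ℤ × ℤ => max z.1.natAbs z.2.natAbs)
    (Finset.mem_biUnion.2 ⟨x₀, hx₀, hz⟩)
  have hmax := max_le_iff.1 hle
  exact (Subtype.ext (hxy z hmax.1 hmax.2)).symm.trans (hx z hz)

/-- The tiles of level `0` in a supertile. -/
noncomputable def dsc : ℕ → Tile → ℕ → ℕ → Tile
  | 0, T, _, _ => T
  | r + 1, T, i, j =>
      dsc r (child forb (lvl r) T (i / width r) (j / width r)) (i % width r) (j % width r)

variable (hP : ParseGoal)

theorem lev_child (x : Pts) (s : ℕ) (w : ℤ × ℤ) {i j : ℕ} (hi : i < 2 * lvl s)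
    (hj : j < 2 * lvl s) :
    (lev hP s x).tiles ((cut hP (lev hP s x)).origin.1 + 2 * (lvl s : ℤ) * w.1 + i,
      (cut hP (lev hP s x)).origin.2 + 2 * (lvl s : ℤ) * w.2 + j) =
      child forb (lvl s) ((lev hP (s + 1) x).tiles w) i j :=
  cut_decomposes hP (lev hP s x) w i j hi hj

theorem tiles_dsc (x : Pts) : ∀ (r : ℕ) (w : ℤ × ℤ) (i j : ℕ), i < width r → j < width r →
    tilesOf x ((corner hP r x).1 + (width r : ℤ) * w.1 + i,
      (corner hP r x).2 + (width r : ℤ) * w.2 + j) = dsc r ((lev hP r x).tiles w) i j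
  | 0, w, i, j, hi, hj => by
      simp only [width, Nat.lt_one_iff] at hi hj
      subst hi hj
      simp [corner, width, dsc, lev]
  | r + 1, w, i, j, hi, hj => by
      simp only [width] at hi hj
      have hW := width_pos r
      have hqi : i / width r < 2 * lvl r := (Nat.div_lt_iff_lt_mul hW).2 (by rwa [mul_comm])
      have hqj : j / width r < 2 * lvl r := (Nat.div_lt_iff_lt_mul hW).2 (by rwa [mul_comm])
      have := tiles_dsc x r ((cut hP (lev hP r x)).origin.1 + 2 * (lvl r : ℤ) * w.1 + (i / width r : ℕ),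
        (cut hP (lev hP r x)).origin.2 + 2 * (lvl r : ℤ) * w.2 + (j / width r : ℕ))
        (i % width r) (j % width r) (Nat.mod_lt _ hW) (Nat.mod_lt _ hW)
      rw [lev_child hP x r w hqi hqj] at this
      rw [dsc, ← this]
      congr 1
      have ei : (i : ℤ) = (width r : ℤ) * ((i / width r : ℕ) : ℤ) + ((i % width r : ℕ) : ℤ) := by
        exact_mod_cast (Nat.div_add_mod i (width r)).symm
      have ej : (j : ℤ) = (width r : ℤ) * ((j / width r : ℕ) : ℤ) + ((j % width r : ℕ) : ℤ) := by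
        exact_mod_cast (Nat.div_add_mod j (width r)).symm
      simp only [corner, width, Nat.cast_mul, Nat.cast_ofNat]
      ext
      · simp only; linear_combination ei
      · simp only; linear_combination ej

theorem sum_range_mul_eq {A : Type} [AddCommMonoid A] (g : ℕ → A) (n : ℕ) :
    ∀ L, ∑ a ∈ Finset.range (n * L), g a = ∑ q ∈ Finset.range L, ∑ i ∈ Finset.range n, g (n * q + i)
  | 0 => by simp
  | L + 1 => by
      rw [Nat.mul_succ, Finset.sum_range_add, sum_range_mul_eq g n L, Finset.sum_range_succ]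

theorem sum_sq_mul {A : Type} [AddCommMonoid A] (g : ℕ → ℕ → A) (n L : ℕ) :
    ∑ a ∈ Finset.range (n * L), ∑ b ∈ Finset.range (n * L), g a b =
      ∑ q ∈ Finset.range L, ∑ q' ∈ Finset.range L,
        ∑ i ∈ Finset.range n, ∑ j ∈ Finset.range n, g (n * q + i) (n * q' + j) := by
  rw [sum_range_mul_eq (fun a => ∑ b ∈ Finset.range (n * L), g a b)]
  refine Finset.sum_congr rfl fun q _ => ?_
  exact (Finset.sum_congr rfl fun i _ => sum_range_mul_eq (g (n * q + i)) n L).trans Finset.sum_comm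

/-- The sum of an observable over a supertile. -/
noncomputable def superSum {A : Type} [AddCommMonoid A] (f : Pts → A) (x : Pts) (r : ℕ)
    (w : ℤ × ℤ) : A :=
  ∑ a ∈ Finset.range (width r), ∑ b ∈ Finset.range (width r),
    f (sys.sh ((corner hP r x).1 + (width r : ℤ) * w.1 + a,
      (corner hP r x).2 + (width r : ℤ) * w.2 + b) x)

theorem superSum_succ {A : Type} [AddCommMonoid A] (f : Pts → A) (x : Pts) (r : ℕ) (w : ℤ × ℤ) :
    superSum hP f x (r + 1) w = ∑ c ∈ blockCells (lvl r),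
      superSum hP f x r ((cut hP (lev hP r x)).origin.1 + 2 * (lvl r : ℤ) * w.1 + c.1,
        (cut hP (lev hP r x)).origin.2 + 2 * (lvl r : ℤ) * w.2 + c.2) := by
  unfold superSum blockCells
  rw [Finset.sum_product, width, sum_sq_mul]
  refine Finset.sum_congr rfl fun q _ => Finset.sum_congr rfl fun q' _ =>
    Finset.sum_congr rfl fun i _ => Finset.sum_congr rfl fun j _ => ?_
  simp only [corner, Nat.cast_mul, Nat.cast_ofNat, Nat.cast_add]
  congr 3; ring

/-- Place of a neighbour among nine. -/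
def near (q : ℤ) : Fin 3 := if q < 0 then 0 else if q = 0 then 1 else 2

theorem near_spec {q : ℤ} (h : -1 ≤ q) (h' : q ≤ 1) : ((near q : ℕ) : ℤ) - 1 = q := by
  unfold near
  split_ifs <;> simp <;> omega

/-- The nine tiles around a position. -/
def nine (y : ℤ × ℤ → Tile) (w : ℤ × ℤ) (p : Fin 3 × Fin 3) : Tile :=
  y (w.1 + ((p.1 : ℕ) : ℤ) - 1, w.2 + ((p.2 : ℕ) : ℤ) - 1)

/-- An observable sees, over a supertile, the nine supertiles around it. -/
theorem exists_local {A : Type} [AddCommMonoid A] {f : Pts → A} {R r : ℕ}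
    (hR : ∀ x y : Pts, (∀ z : ℤ × ℤ, z.1.natAbs ≤ R → z.2.natAbs ≤ R → tilesOf x z = tilesOf y z) →
      f x = f y) (hr : R ≤ width r) :
    ∃ G : (Fin 3 × Fin 3 → Tile) → A, ∀ x w,
      superSum hP f x r w = G (nine (lev hP r x).tiles w) := by
  classical
  let φ : (ℤ × ℤ → Tile) → A := fun u =>
    if h : ∃ y : Pts, ∀ z : ℤ × ℤ, z.1.natAbs ≤ R → z.2.natAbs ≤ R → tilesOf y z = u z
    then f h.choose else 0
  have hφ : ∀ (y : Pts) u, (∀ z : ℤ × ℤ, z.1.natAbs ≤ R → z.2.natAbs ≤ R → tilesOf y z = u z) →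
      f y = φ u := by
    intro y u hy
    have he : ∃ y : Pts, ∀ z : ℤ × ℤ, z.1.natAbs ≤ R → z.2.natAbs ≤ R → tilesOf y z = u z := ⟨y, hy⟩
    simp only [φ]
    rw [dif_pos he]
    exact hR _ _ fun z h1 h2 => (hy z h1 h2).trans (he.choose_spec z h1 h2).symm
  refine ⟨fun n => ∑ a ∈ Finset.range (width r), ∑ b ∈ Finset.range (width r), φ fun d =>
    dsc r (n (near (((a : ℤ) + d.1) / width r), near (((b : ℤ) + d.2) / width r)))
      (((a : ℤ) + d.1) % width r).toNat (((b : ℤ) + d.2) % width r).toNat, fun x w => ?_⟩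
  refine Finset.sum_congr rfl fun a ha => Finset.sum_congr rfl fun b hb => hφ _ _ fun z h1 h2 => ?_
  have hW : (0 : ℤ) < width r := by exact_mod_cast width_pos r
  have key : ∀ (t : ℕ) (d : ℤ), t < width r → d.natAbs ≤ R →
      (-1 ≤ ((t : ℤ) + d) / width r ∧ ((t : ℤ) + d) / width r ≤ 1) ∧
        (((t : ℤ) + d) % width r).toNat < width r ∧
        ((((t : ℤ) + d) % width r).toNat : ℤ) =
          (t : ℤ) + d - (width r : ℤ) * (((t : ℤ) + d) / width r) := by
    intro t d ht hd
    have hm := Int.emod_add_mul_ediv ((t : ℤ) + d) (width r)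
    have hm0 := Int.emod_nonneg ((t : ℤ) + d) hW.ne'
    have hm1 := Int.emod_lt_of_pos ((t : ℤ) + d) hW
    refine ⟨⟨?_, ?_⟩, by omega, by omega⟩
    · rw [Int.le_ediv_iff_mul_le hW]; omega
    · rw [← Int.lt_add_one_iff, Int.ediv_lt_iff_lt_mul hW]; omega
  obtain ⟨⟨p1, p1'⟩, p2, p3⟩ := key a z.1 (Finset.mem_range.1 ha) h1
  obtain ⟨⟨q1, q1'⟩, q2, q3⟩ := key b z.2 (Finset.mem_range.1 hb) h2
  rw [nine, ← tiles_dsc hP x r _ _ _ p2 q2, tilesOf_sh]
  congr 1
  rw [add_sub_assoc, add_sub_assoc, near_spec p1 p1', near_spec q1 q1', p3, q3]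
  ext
  · simp only [Prod.fst_add]; ring
  · simp only [Prod.snd_add]; ring

theorem exists_image {α β : Type} [Fintype α] (g : α → β) :
    ∃ V : Finset β, V.card ≤ Fintype.card α ∧ ∀ a, g a ∈ V := by
  classical
  exact ⟨Finset.univ.image g, Finset.card_image_le.trans (le_of_eq Finset.card_univ),
    fun a => Finset.mem_image_of_mem _ (Finset.mem_univ a)⟩

open Classical in
/-- The tile tower has bounded areas. -/
theorem boundedArea : (tower hP).BoundedArea := by
  obtain ⟨Q, hQ⟩ := area2_mem_span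
  refine ⟨Q + Fintype.card (Fin 3 × Fin 3 → SKey), fun ι _ f hf => ?_⟩
  obtain ⟨R, hR⟩ := exists_window hf
  have hr : R ≤ width R := Nat.lt_two_pow_self.le.trans (two_pow_le_width R)
  obtain ⟨G, hG⟩ := exists_local hP hR hr
  let Inner : ℕ × ℕ → Prop := fun c =>
    1 ≤ c.1 ∧ c.1 + 2 ≤ 2 * lvl R ∧ 1 ≤ c.2 ∧ c.2 + 2 ≤ 2 * lvl R
  let G1 : Tile → ι → ZMod 2 := fun P => ∑ c ∈ (blockCells (lvl R)).filter Inner,
    G fun p => child forb (lvl R) P (c.1 + (p.1 : ℕ) - 1) (c.2 + (p.2 : ℕ) - 1)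
  obtain ⟨V, hV, hspan⟩ := hQ (ι → ZMod 2) forb (lvl (R + 1)) (lvl (R + 2)) (K_le_lvl _) G1
  obtain ⟨Vb, hVb, hmem⟩ :=
    exists_image fun k : Fin 3 × Fin 3 → SKey => G fun p => (k p).tile
  refine ⟨R + 3, V ∪ Vb, ?_, fun x hx => ?_⟩
  · have h1 := Finset.card_union_le V Vb
    omega
  have hVl : Submodule.span (ZMod 2) (V : Set (ι → ZMod 2)) ≤
      Submodule.span (ZMod 2) ((V ∪ Vb : Finset _) : Set (ι → ZMod 2)) :=
    Submodule.span_mono (by simp)
  -- the sum over a supertile of level `R + 1`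
  have h1 : ∀ w, superSum hP f x (R + 1) w - G1 ((lev hP (R + 1) x).tiles w) ∈
      Submodule.span (ZMod 2) ((V ∪ Vb : Finset _) : Set (ι → ZMod 2)) := by
    intro w
    rw [superSum_succ, ← Finset.sum_filter_add_sum_filter_not (blockCells (lvl R)) Inner]
    have e : ∀ c ∈ (blockCells (lvl R)).filter Inner,
        superSum hP f x R ((cut hP (lev hP R x)).origin.1 + 2 * (lvl R : ℤ) * w.1 + c.1,
          (cut hP (lev hP R x)).origin.2 + 2 * (lvl R : ℤ) * w.2 + c.2) =
        G fun p => child forb (lvl R) ((lev hP (R + 1) x).tiles w)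
          (c.1 + (p.1 : ℕ) - 1) (c.2 + (p.2 : ℕ) - 1) := by
      intro c hc
      obtain ⟨-, c1, c2, c3, c4⟩ := Finset.mem_filter.1 hc
      rw [hG]
      congr 1
      funext p
      have := p.1.isLt
      have := p.2.isLt
      rw [← lev_child hP x R w (i := c.1 + (p.1 : ℕ) - 1) (j := c.2 + (p.2 : ℕ) - 1)
        (by omega) (by omega), nine]
      congr 1
      rw [Nat.cast_sub (by omega), Nat.cast_sub (by omega)]
      push_cast
      ext <;> simp only <;> ring
    rw [Finset.sum_congr rfl e, add_sub_cancel_left]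
    refine Submodule.sum_mem _ fun c hc => Submodule.subset_span ?_
    obtain ⟨hc0, hc⟩ := Finset.mem_filter.1 hc
    rw [mem_blockCells] at hc0
    simp only [Inner, not_and_or, not_le] at hc
    rw [hG]
    have hsmall : ∀ p : Fin 3 × Fin 3, ∃ k : SKey, k.tile = nine (lev hP R x).tiles
        ((cut hP (lev hP R x)).origin.1 + 2 * (lvl R : ℤ) * w.1 + c.1,
          (cut hP (lev hP R x)).origin.2 + 2 * (lvl R : ℤ) * w.2 + c.2) p := by
      intro p
      have := p.1.isLt
      have := p.2.isLt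
      have hL := K_add_three_le_lvl R
      -- the block and the cell of a neighbour
      have loc : ∀ (t : ℕ) (e : ℕ), t < 2 * lvl R → e < 3 → ∃ (d : ℤ) (t' : ℕ),
          t' < 2 * lvl R ∧ (t : ℤ) + e - 1 = 2 * (lvl R : ℤ) * d + t' ∧
            ((t = 0 ∨ 2 * lvl R < t + 2) → t' ≤ 1 ∨ 2 * lvl R ≤ t' + 2) := by
        intro t e ht he
        by_cases ha : t + e = 0
        · exact ⟨-1, 2 * lvl R - 1, by omega, by omega, by omega⟩
        by_cases hb : 2 * lvl R < t + e
        · exact ⟨1, 0, by omega, by omega, by omega⟩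
        exact ⟨0, t + e - 1, by omega, by omega, by omega⟩
      obtain ⟨d1, i', hi', ei, bi⟩ := loc c.1 p.1 hc0.1 p.1.isLt
      obtain ⟨d2, j', hj', ej, bj⟩ := loc c.2 p.2 hc0.2 p.2.isLt
      obtain ⟨k, hk⟩ := child_small forb hL hi' hj' (by omega)
        ((lev hP (R + 1) x).tiles (w.1 + d1, w.2 + d2))
      refine ⟨k, hk.trans ?_⟩
      rw [← lev_child hP x R _ hi' hj', nine]
      congr 1
      ext
      · simp only; linear_combination -ei
      · simp only; linear_combination -ej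
    choose k hk using hsmall
    have := hmem k
    simp only [hk] at this
    exact Finset.mem_coe.2 (Finset.mem_union_right _ this)
  -- the sum over the supertile containing the blockCells
  have hx1 : ((-(corner hP (R + 3) x).1 : ℤ) : ZMod (width (R + 3))) = 0 := (Prod.ext_iff.1 hx).1
  have hx2 : ((-(corner hP (R + 3) x).2 : ℤ) : ZMod (width (R + 3))) = 0 := (Prod.ext_iff.1 hx).2
  obtain ⟨k1, hk1⟩ := (ZMod.intCast_zmod_eq_zero_iff_dvd _ _).1 hx1
  obtain ⟨k2, hk2⟩ := (ZMod.intCast_zmod_eq_zero_iff_dvd _ _).1 hx2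
  have hsum : (∑ a ∈ Finset.range ((tower hP).W (R + 3)), ∑ b ∈ Finset.range ((tower hP).W (R + 3)),
      f (sys.sh ((a : ℤ), (b : ℤ)) x)) = superSum hP f x (R + 3) (k1, k2) := by
    refine Finset.sum_congr rfl fun a _ => Finset.sum_congr rfl fun b _ => ?_
    congr 3
    ext
    · simp only; linear_combination hk1
    · simp only; linear_combination hk2
  rw [hsum, superSum_succ]
  have h2 : ∀ w, superSum hP f x (R + 2) w -
      area forb (lvl (R + 1)) ((lev hP (R + 2) x).tiles w) G1 ∈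
      Submodule.span (ZMod 2) ((V ∪ Vb : Finset _) : Set (ι → ZMod 2)) := by
    intro w
    rw [superSum_succ, area, ← Finset.sum_sub_distrib]
    refine Submodule.sum_mem _ fun c hc => ?_
    rw [mem_blockCells] at hc
    rw [← lev_child hP x (R + 1) w hc.1 hc.2]
    exact h1 _
  rw [← sub_add_cancel (∑ c ∈ blockCells (lvl (R + 2)), superSum hP f x (R + 2) _)
    (∑ c ∈ blockCells (lvl (R + 2)), area forb (lvl (R + 1))
      (child forb (lvl (R + 2)) ((lev hP (R + 2 + 1) x).tiles (k1, k2)) c.1 c.2) G1)]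
  refine Submodule.add_mem _ ?_ (hVl (hspan _))
  rw [← Finset.sum_sub_distrib]
  refine Submodule.sum_mem _ fun c hc => ?_
  rw [mem_blockCells] at hc
  rw [← lev_child hP x (R + 2) (k1, k2) hc.1 hc.2]
  exact h2 _

/-- The mod-2 functions of the subshift modulo translation form a finite-dimensional space. -/
theorem coinv_finite (hP : ParseGoal) : Module.Finite (ZMod 2) sys.Coinv :=
  (tower hP).coinv_finite (boundedArea hP)

end Vale.Agent.P196.Full.Tiles
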