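import Vale.Agent.P196.Full.Tiles.Rank.Twins

/-!
# P196: sums over two generations of children

The sum of an observable over the children of an untagged tile is a function of the geometry plus
a function of finitely many bits (the bits near the central block): the twin lines cancel modulo
two.  Hence the sums over two generations of children span a space of bounded dimension.
-/

namespace Vale.Agent.P196.Full.Tiles

/-- The blockCells of a block of half-width `M`. -/
def blockCells (M : ℕ) : Finset (ℕ × ℕ) := Finset.range (2 * M) ×ˢ Finset.range (2 * M)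

theorem mem_blockCells {M : ℕ} {c : ℕ × ℕ} : c ∈ blockCells M ↔ c.1 < 2 * M ∧ c.2 < 2 * M := by
  simp [blockCells]

/-- The sum of an observable over the children. -/
noncomputable def area {A : Type} [AddCommMonoid A] (f : (Sg → Bool) → Bool) (M : ℕ) (T : Tile)
    (G : Tile → A) : A :=
  ∑ c ∈ blockCells M, G (child f M T c.1 c.2)

/-- A column of a pair. -/
def TwinCol (a : ℕ) : Prop := ColBase a ∨ (1 ≤ a ∧ ColBase (a - 1))

/-- A row of a pair. -/
def TwinRow (b : ℕ) : Prop := RowBase b ∨ (1 ≤ b ∧ RowBase (b - 1))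

/-- The blockCells of the twin lines away from the centre. -/
def TwinCell (M : ℕ) (c : ℕ × ℕ) : Prop :=
  (M ≤ c.1 + K ∧ TwinCol (c.1 + K - M) ∧ ¬ Band M c.2) ∨
    (M ≤ c.2 + K ∧ TwinRow (c.2 + K - M) ∧ ¬ Band M c.1)

/-- The tile without its bits. -/
def Tile.bare (T : Tile) : Tile where
  l := ⟨T.l.g, fun _ => false⟩
  r := ⟨T.r.g, fun _ => false⟩
  d := ⟨T.d.g, fun _ => false⟩
  u := ⟨T.u.g, fun _ => false⟩

theorem Tile.bare_l (T : Tile) : T.bare.l.g = T.l.g := rfl

theorem Tile.bare_r (T : Tile) : T.bare.r.g = T.r.g := rfl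

theorem Tile.bare_d (T : Tile) : T.bare.d.g = T.d.g := rfl

theorem Tile.bare_u (T : Tile) : T.bare.u.g = T.u.g := rfl

theorem Tile.bare_gs (T : Tile) : T.bare.gs = T.gs := by
  funext s
  simp only [Tile.gs, Tile.bare_l, Tile.bare_r, Tile.bare_d, Tile.bare_u]

theorem Tile.bare_tagCell (T : Tile) : T.bare.tagCell = T.tagCell := by
  simp only [Tile.tagCell, Tile.bare_l]

theorem child_bare (f : (Sg → Bool) → Bool) {M i j : ℕ} (T : Tile) (hB : ¬ (Band M i ∧ Band M j))
    (hTw : ¬ TwinCell M (i, j)) : child f M T i j = child f M T.bare i j := by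
  have hrow : ∀ t k, M ≤ j + K → j < M + K → j + K - M ≠ cPos t k := by
    intro t k h1 h2 e
    exact hTw (Or.inr ⟨h1, rowBase_of_cPos t k e, fun h => hB ⟨h, by unfold Band; omega⟩⟩)
  have hcol : ∀ a, M ≤ i + K → i < M + K → a = i + K - M →
      ¬ TwinCol a := by
    rintro a h1 h2 rfl h3
    exact hTw (Or.inl ⟨h1, h3, fun h => hB ⟨by unfold Band; omega, h⟩⟩)
  have hH : ∀ x, i ≤ x → x ≤ i + 1 → fillH f M T x j = fillH f M T.bare x j := by
    intro x hx hx'
    have hin : ¬ ((M ≤ j + K ∧ j < M + K) ∧ (M < x + K ∧ x < M + K)) := fun h =>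
      hB ⟨by unfold Band; omega, by unfold Band; omega⟩
    funext h
    cases h
    case C =>
      simp only [fillH]
      by_cases hr : M ≤ j + K ∧ j < M + K
      · have hs : ∀ (T : Tile) s, shown T s (j + K - M) = false := fun T s => by
          simp [shown, fun t k => hrow t k hr.1 hr.2]
        simp [hs]
      · simp [hr]
    case P =>
      simp only [fillH]
      rw [show (decide (M ≤ j + K ∧ j < M + K) && decide (M < x + K ∧ x < M + K)) = false by
        simp only [← Bool.decide_and, decide_eq_false hin]]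
      simp only [Bool.false_and]
    all_goals simp only [fillH, Tile.bare_l, Tile.bare_r, Tile.bare_d, Tile.bare_u,
      Tile.bare_tagCell]
    all_goals rfl
  have hV : ∀ y, j ≤ y → y ≤ j + 1 → fillV f M T i y = fillV f M T.bare i y := by
    intro y hy hy'
    have hin : ¬ ((M ≤ i + K ∧ i < M + K) ∧ (M < y + K ∧ y < M + K)) := fun h =>
      hB ⟨by unfold Band; omega, by unfold Band; omega⟩
    have hin' : (decide (M ≤ i + K ∧ i < M + K) && decide (M < y + K ∧ y < M + K)) = false := by
      simp only [← Bool.decide_and, decide_eq_false hin]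
    funext h
    cases h
    case C =>
      simp only [fillV]
      by_cases hr : M ≤ i + K ∧ i < M + K
      · have hs : ∀ (T : Tile) s, shown T s (i + K - M) = false := fun T s => by
          have : ∀ t k, i + K - M ≠ cPos t k := fun t k e =>
            hcol _ hr.1 hr.2 rfl (colBase_of_cPos t k e)
          simp [shown, this]
        simp [hs]
      · simp [hr]
    case Bus =>
      simp only [fillV]
      by_cases hr : M ≤ i + K ∧ i < M + K
      · have : ∀ q h k, i + K - M ≠ sCol q h k := fun q h k e =>
          hcol _ hr.1 hr.2 rfl (colBase_of_sCol q h k e)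
        simp [this]
      · simp [hr]
    case CT => simp only [fillV, hin', Bool.false_and]
    case Qm => simp only [fillV, hin', Bool.false_and]
    case O1 => simp only [fillV, hin', Bool.false_and]
    all_goals simp only [fillV, Tile.bare_d, Tile.bare_u, Tile.bare_gs, Tile.bare_tagCell]
    all_goals rfl
  simp only [child, Tile.mk.injEq]
  refine ⟨?_, ?_, ?_, ?_⟩
  · rw [hH i le_rfl (by omega)]
  · rw [hH (i + 1) (by omega) le_rfl]
  · rw [hV j le_rfl (by omega)]
  · rw [hV (j + 1) (by omega) le_rfl]

section Sums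

variable {A : Type} [AddCommGroup A] [Module (ZMod 2) A]

theorem add_self_zero (a : A) : a + a = 0 := by
  have h : ((1 : ZMod 2) + 1) • a = 0 := by
    rw [show (1 : ZMod 2) + 1 = 0 by decide, zero_smul]
  rwa [add_smul, one_smul] at h

open Classical in
/-- The twin lines cancel. -/
theorem sum_twins (f : (Sg → Bool) → Bool) {M : ℕ} (hM : 4 * K ≤ M) {T : Tile} (hT : Untagged T)
    (G : Tile → A) :
    ∑ c ∈ (blockCells M).filter (TwinCell M), G (child f M T c.1 c.2) = 0 := by
  have hK := K_bounds
  let mv : ℕ × ℕ → ℕ × ℕ := fun c =>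
    if ¬ Band M c.2 then (if ColBase (c.1 + K - M) then (c.1 + 1, c.2) else (c.1 - 1, c.2))
    else (if RowBase (c.2 + K - M) then (c.1, c.2 + 1) else (c.1, c.2 - 1))
  have key : ∀ c, c ∈ blockCells M → TwinCell M c → mv c ∈ blockCells M ∧ TwinCell M (mv c) ∧
      mv c ≠ c ∧ mv (mv c) = c ∧
      child f M T c.1 c.2 = child f M T (mv c).1 (mv c).2 := by
    rintro ⟨i, j⟩ hc h
    rw [mem_blockCells] at hc
    rcases h with ⟨hi, hb, hj⟩ | ⟨hj, hb, hi⟩
    · simp only at hi hb hj hc
      by_cases hB : ColBase (i + K - M)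
      · have hbd := hB.bounds
        have e : i + 1 + K - M = i + K - M + 1 := by omega
        have hns : ¬ ColBase (i + 1 + K - M) := by rw [e]; exact hB.not_succ
        simp only [mv, hj, not_false_eq_true, if_true, hB]
        refine ⟨mem_blockCells.2 ⟨by simp only; omega, hc.2⟩, Or.inl ⟨by simp only; omega, ?_, hj⟩, ?_, ?_,
          child_col_pair f hM hT hi hB hc.2 hj⟩
        · simp only [e]; exact Or.inr ⟨by omega, by simpa using hB⟩
        · simp
        · simp [if_neg hns]
      · obtain ⟨h1, hB'⟩ := hb.resolve_left hB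
        have hbd := hB'.bounds
        have e : i - 1 + K - M = i + K - M - 1 := by omega
        have hi1 : 1 ≤ i := by omega
        simp only [mv, hj, not_false_eq_true, if_true, hB, if_false]
        refine ⟨mem_blockCells.2 ⟨by simp only; omega, hc.2⟩, Or.inl ⟨by simp only; omega, ?_, hj⟩, ?_, ?_,
          ?_⟩
        · simp only [e]; exact Or.inl hB'
        · simp; omega
        · simp [e, hB', show i - 1 + 1 = i by omega]
        · have := child_col_pair f hM hT (i := i - 1) (j := j) (by omega) (by rw [e]; exact hB') hc.2 hj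
          rw [show i - 1 + 1 = i by omega] at this
          exact this.symm
    · simp only at hi hb hj hc
      by_cases hB : RowBase (j + K - M)
      · have hbd := hB.bounds
        have e : j + 1 + K - M = j + K - M + 1 := by omega
        have hns : ¬ RowBase (j + 1 + K - M) := by rw [e]; exact hB.not_succ
        have hjB : Band M j := by unfold Band; omega
        have hjB' : Band M (j + 1) := by unfold Band; omega
        simp only [mv, hjB, not_true_eq_false, if_false, hB, if_true]
        refine ⟨mem_blockCells.2 ⟨hc.1, by simp only; omega⟩, Or.inr ⟨by simp only; omega, ?_, hi⟩, ?_, ?_,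
          child_row_pair f hM hT hj hB hc.1 hi⟩
        · simp only [e]; exact Or.inr ⟨by omega, by simpa using hB⟩
        · simp
        · simp [hjB', if_neg hns]
      · obtain ⟨h1, hB'⟩ := hb.resolve_left hB
        have hbd := hB'.bounds
        have e : j - 1 + K - M = j + K - M - 1 := by omega
        have hjB : Band M j := by unfold Band; omega
        have hjB' : Band M (j - 1) := by unfold Band; omega
        simp only [mv, hjB, not_true_eq_false, if_false, hB]
        refine ⟨mem_blockCells.2 ⟨hc.1, by simp only; omega⟩, Or.inr ⟨by simp only; omega, ?_, hi⟩, ?_, ?_,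
          ?_⟩
        · simp only [e]; exact Or.inl hB'
        · simp; omega
        · simp [hjB', e, hB', show j - 1 + 1 = j by omega]
        · have := child_row_pair f hM hT (i := i) (j := j - 1) (by omega) (by rw [e]; exact hB') hc.1 hi
          rw [show j - 1 + 1 = j by omega] at this
          exact this.symm
  refine Finset.sum_involution (fun c _ => mv c) (fun c hc => ?_) (fun c hc _ => ?_) (fun c hc => ?_)
    (fun c hc => ?_) <;> rw [Finset.mem_filter] at hc
  · rw [← (key c hc.1 hc.2).2.2.2.2, add_self_zero]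
  · exact (key c hc.1 hc.2).2.2.1
  · exact Finset.mem_filter.2 ⟨(key c hc.1 hc.2).1, (key c hc.1 hc.2).2.1⟩
  · exact (key c hc.1 hc.2).2.2.2.1

open Classical in
/-- An untagged tile: a sum near the centre and a sum that only sees the geometry. -/
theorem area_split (f : (Sg → Bool) → Bool) {M : ℕ} (hM : 4 * K ≤ M) {T : Tile} (hT : Untagged T)
    (G : Tile → A) :
    area f M T G = ∑ c ∈ (blockCells M).filter (fun c => Band M c.1 ∧ Band M c.2),
        G (child f M T c.1 c.2) +
      ∑ c ∈ (blockCells M).filter (fun c => ¬ (Band M c.1 ∧ Band M c.2) ∧ ¬ TwinCell M c),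
        G (child f M T.bare c.1 c.2) := by
  unfold area
  rw [← Finset.sum_filter_add_sum_filter_not (blockCells M) (TwinCell M), sum_twins f hM hT G, zero_add,
    ← Finset.sum_filter_add_sum_filter_not ((blockCells M).filter fun c => ¬ TwinCell M c)
      (fun c => Band M c.1 ∧ Band M c.2), Finset.filter_filter, Finset.filter_filter]
  refine congr_arg₂ (· + ·) ?_ ?_
  · refine Finset.sum_congr (Finset.filter_congr fun c _ => ⟨fun h => h.2, fun h => ⟨?_, h⟩⟩)
      fun _ _ => rfl
    rintro (h' | h')
    · exact h'.2.2 h.2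
    · exact h'.2.2 h.1
  · refine Finset.sum_congr (Finset.filter_congr fun c _ => and_comm) fun c hc => ?_
    obtain ⟨-, h1, h2⟩ := Finset.mem_filter.1 hc
    rw [child_bare f T h1 h2]

end Sums

theorem GCol.tr_untagged {g : GCol} (h : g.tagA = none ∧ g.tagB = none) :
    g.tr.tagA = none ∧ g.tr.tagB = none := by
  cases g <;> simp_all [GCol.tr, GCol.tagA, GCol.tagB]

theorem geoH_untagged {M x y : ℕ} (h : ¬ (M ≤ x + K ∧ x ≤ M + K ∧ M ≤ y + K ∧ y < M + K)) :
    (geoH M x y).tagA = none ∧ (geoH M x y).tagB = none := by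
  unfold geoH
  rw [if_neg h]
  split_ifs <;> exact ⟨rfl, rfl⟩

/-- A child away from the centre is untagged. -/
theorem child_untagged (f : (Sg → Bool) → Bool) {M : ℕ} (T : Tile) {i j : ℕ}
    (h : ¬ (Band M i ∧ Band M j)) : Untagged (child f M T i j) := by
  unfold Band at h
  intro s
  fin_cases s
  · exact geoH_untagged (M := M) (x := i) (y := j) (by omega)
  · exact geoH_untagged (M := M) (x := i + 1) (y := j) (by omega)
  · exact GCol.tr_untagged (geoH_untagged (M := M) (x := j) (y := i) (by omega))
  · exact GCol.tr_untagged (geoH_untagged (M := M) (x := j + 1) (y := i) (by omega))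

/-- The bits near the centre. -/
abbrev CKey : Type := Fin (2 * K + 4) → Fin (2 * K + 4) → (HL → Bool) × (VL → Bool)

/-- A position near the centre with the bits of a tile there. -/
abbrev PKey : Type := Fin (2 * K + 3) × Fin (2 * K + 3) ×
  (HL → Bool) × (HL → Bool) × (VL → Bool) × (VL → Bool)

-- unfolding `K` makes the unifier evaluate huge numerals
attribute [local irreducible] K

open Classical in
/-- Sums over two generations of children span boundedly many dimensions. -/
theorem area2_mem_span : ∃ Q : ℕ, ∀ (A : Type) [AddCommGroup A] [Module (ZMod 2) A]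
    (f : (Sg → Bool) → Bool) (M M' : ℕ), 4 * K ≤ M → ∀ G : Tile → A, ∃ V : Finset A,
      V.card ≤ Q ∧ ∀ T : Tile, ∑ c ∈ blockCells M', area f M (child f M' T c.1 c.2) G ∈
        Submodule.span (ZMod 2) (V : Set A) := by
  have : Nonempty CKey := ⟨fun _ _ => (fun _ => false, fun _ => false)⟩
  refine ⟨Fintype.card CKey + Fintype.card PKey + 1, fun A _ _ f M M' hM G => ?_⟩
  let E := (blockCells M).filter fun c => Band M c.1 ∧ Band M c.2
  let dec : CKey → ℕ → ℕ → (HL → Bool) × (VL → Bool) := fun k x y =>
    if h : x + K + 1 - M < 2 * K + 4 ∧ y + K + 1 - M < 2 * K + 4 then k ⟨_, h.1⟩ ⟨_, h.2⟩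
    else (fun _ => false, fun _ => false)
  let B1 : CKey → A := fun k => ∑ c ∈ E, G
    { l := ⟨geoH M c.1 c.2, (dec k c.1 c.2).1⟩
      r := ⟨geoH M (c.1 + 1) c.2, (dec k (c.1 + 1) c.2).1⟩
      d := ⟨geoV M c.1 c.2, (dec k c.1 c.2).2⟩
      u := ⟨geoV M c.1 (c.2 + 1), (dec k c.1 (c.2 + 1)).2⟩ }
  let B2 : PKey → A := fun p =>
    let i : ℕ := (p.1 : ℕ) + M' - (K + 1)
    let j : ℕ := (p.2.1 : ℕ) + M' - (K + 1)
    area f M
      { l := ⟨geoH M' i j, p.2.2.1⟩
        r := ⟨geoH M' (i + 1) j, p.2.2.2.1⟩
        d := ⟨geoV M' i j, p.2.2.2.2.1⟩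
        u := ⟨geoV M' i (j + 1), p.2.2.2.2.2⟩ } G
  let bareChild : ℕ × ℕ → Tile := fun c =>
    { l := ⟨geoH M' c.1 c.2, fun _ => false⟩
      r := ⟨geoH M' (c.1 + 1) c.2, fun _ => false⟩
      d := ⟨geoV M' c.1 c.2, fun _ => false⟩
      u := ⟨geoV M' c.1 (c.2 + 1), fun _ => false⟩ }
  let c0 : A := ∑ c ∈ (blockCells M').filter fun c => ¬ (Band M' c.1 ∧ Band M' c.2),
    ∑ d ∈ (blockCells M).filter (fun d => ¬ (Band M d.1 ∧ Band M d.2) ∧ ¬ TwinCell M d),
      G (child f M (bareChild c) d.1 d.2)
  refine ⟨insert c0 (Finset.univ.image B1 ∪ Finset.univ.image B2), ?_, fun T => ?_⟩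
  · have h1 := Finset.card_insert_le c0 (Finset.univ.image B1 ∪ Finset.univ.image B2)
    have h2 := Finset.card_union_le (Finset.univ.image B1) (Finset.univ.image B2)
    have h3 := Finset.card_image_le (s := Finset.univ) (f := B1)
    have h4 := Finset.card_image_le (s := Finset.univ) (f := B2)
    rw [Finset.card_univ] at h3 h4
    omega
  rw [← Finset.sum_filter_add_sum_filter_not (blockCells M') (fun c => Band M' c.1 ∧ Band M' c.2)]
  refine Submodule.add_mem _ (Submodule.sum_mem _ fun c hc => Submodule.subset_span ?_) ?_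
  · obtain ⟨-, h1, h2⟩ := Finset.mem_filter.1 hc
    unfold Band at h1 h2
    refine Finset.mem_coe.2 (Finset.mem_insert_of_mem (Finset.mem_union_right _
      (Finset.mem_image.2 ⟨(⟨c.1 + K + 1 - M', by omega⟩, ⟨c.2 + K + 1 - M', by omega⟩,
        fillH f M' T c.1 c.2, fillH f M' T (c.1 + 1) c.2, fillV f M' T c.1 c.2,
        fillV f M' T c.1 (c.2 + 1)), Finset.mem_univ _, ?_⟩)))
    simp only [B2, child, show c.1 + K + 1 - M' + M' - (K + 1) = c.1 by omega,
      show c.2 + K + 1 - M' + M' - (K + 1) = c.2 by omega]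
  · rw [Finset.sum_congr rfl fun c hc =>
      area_split f hM (child_untagged f T (Finset.mem_filter.1 hc).2) G, Finset.sum_add_distrib]
    refine Submodule.add_mem _ (Submodule.sum_mem _ fun c _ => Submodule.subset_span ?_)
      (Submodule.subset_span (Finset.mem_coe.2 (Finset.mem_insert_self _ _)))
    refine Finset.mem_coe.2 (Finset.mem_insert_of_mem (Finset.mem_union_left _
      (Finset.mem_image.2 ⟨fun a b => (fillH f M (child f M' T c.1 c.2) (a + M - (K + 1)) (b + M - (K + 1)),
        fillV f M (child f M' T c.1 c.2) (a + M - (K + 1)) (b + M - (K + 1))), Finset.mem_univ _, ?_⟩)))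
    refine Finset.sum_congr rfl fun d hd => ?_
    obtain ⟨-, h1, h2⟩ := Finset.mem_filter.1 hd
    unfold Band at h1 h2
    have e : ∀ x y, d.1 ≤ x → x ≤ d.1 + 1 → d.2 ≤ y → y ≤ d.2 + 1 →
        dec (fun a b => (fillH f M (child f M' T c.1 c.2) (a + M - (K + 1)) (b + M - (K + 1)),
          fillV f M (child f M' T c.1 c.2) (a + M - (K + 1)) (b + M - (K + 1)))) x y =
        (fillH f M (child f M' T c.1 c.2) x y, fillV f M (child f M' T c.1 c.2) x y) := by
      intro x y hx hx' hy hy'
      simp only [dec]
      rw [dif_pos ⟨by omega, by omega⟩]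
      simp only [show x + K + 1 - M + M - (K + 1) = x by omega,
        show y + K + 1 - M + M - (K + 1) = y by omega]
    rw [e d.1 d.2 le_rfl (by omega) le_rfl (by omega), e (d.1 + 1) d.2 (by omega) le_rfl le_rfl (by omega),
      e d.1 (d.2 + 1) le_rfl (by omega) (by omega) le_rfl]
    simp only [child]

end Vale.Agent.P196.Full.Tiles
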