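import Vale.Agent.P196.Full.Tiles.Spec

/-!
# P196: twin lines

The columns and rows of displayed bits come in adjacent pairs; outside the central block enlarged
by one ring the two blockCells of a pair are equal, for an untagged parent.
-/

namespace Vale.Agent.P196.Full.Tiles

theorem K_bounds : 8 * (nC + nS) + 64 ≤ K ∧ K % 2 = 0 := by
  constructor
  · unfold K; omega
  · unfold K; omega

theorem K_le_lvl (s : ℕ) : 4 * K ≤ lvl s := by
  unfold lvl M0; omega

theorem lvl_succ_twin (s : ℕ) : lvl (s + 1) = lvl s + 1 := by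
  unfold lvl; omega

/-- A row or column of the band of the central block, enlarged by one. -/
def Band (M p : ℕ) : Prop := M ≤ p + K + 1 ∧ p ≤ M + K

noncomputable instance (M p : ℕ) : Decidable (Band M p) := inferInstanceAs (Decidable (_ ∧ _))

/-- A tile with no tag on its sides. -/
def Untagged (T : Tile) : Prop :=
  ∀ s, (T.gs s).tagA = none ∧ (T.gs s).tagB = none

theorem Untagged.sides {T : Tile} (hT : Untagged T) :
    (T.l.g.tagA = none ∧ T.l.g.tagB = none) ∧ (T.r.g.tagA = none ∧ T.r.g.tagB = none) ∧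
      (T.d.g.tagA = none ∧ T.d.g.tagB = none) ∧ (T.u.g.tagA = none ∧ T.u.g.tagB = none) :=
  ⟨hT 0, hT 1, hT 2, hT 3⟩

theorem Untagged.coord {T : Tile} (hT : Untagged T) (c : Fin 2) :
    (fun s => (T.gs s).coord c) = fun _ => none := by
  funext s
  unfold GCol.coord
  split <;> simp [(hT s).1, (hT s).2]

theorem Untagged.tagCell {T : Tile} (hT : Untagged T) : T.tagCell = none := by
  unfold Tile.tagCell
  have h := (hT 0).1
  split
  · next a b e => simp [Tile.gs, e, GCol.tagA] at h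
  · rfl

/-- The bases of the pairs of columns. -/
def ColBase (a : ℕ) : Prop :=
  (∃ t, a = cPos t 0) ∨ ∃ q h, a = sCol q h 0

/-- The bases of the pairs of rows. -/
def RowBase (b : ℕ) : Prop := ∃ t, b = cPos t 0

theorem cPos_twin_bounds (t : DI) : cPos t 0 + 2 ≤ 4 + 2 * nC ∧ 4 ≤ cPos t 0 ∧ cPos t 0 % 2 = 0 := by
  have := (cIdx t).isLt
  simp only [cPos, Fin.val_zero]
  omega

theorem cPos_one (t : DI) : cPos t 1 = cPos t 0 + 1 := by simp [cPos]

theorem sCol_one (q : Sg) (h : Fin 2) : sCol q h 1 = sCol q h 0 + 1 := by simp [sCol]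

theorem sCol_twin_bounds (q : Sg) (h : Fin 2) :
    (4 + 2 * nC + nS ≤ sCol q h 0 ∧ sCol q h 0 + 2 ≤ 4 + 2 * nC + 3 * nS ∧
        (sCol q h 0) % 2 = nS % 2) ∨
      (K + 2 ≤ sCol q h 0 ∧ sCol q h 0 + 2 ≤ K + 2 + 2 * nS ∧ sCol q h 0 % 2 = 0) := by
  have := (sIdx q).isLt
  have := K_bounds
  unfold sCol
  split
  · left; simp only [Fin.val_zero]; omega
  · right; simp only [Fin.val_zero]; omega

/-- Where the pairs of columns lie. -/
theorem ColBase.bounds {a : ℕ} (h : ColBase a) :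
    4 ≤ a ∧ (a + 2 < K ∨ (K + 2 ≤ a ∧ a + 2 ≤ K + 2 + 2 * nS)) := by
  have := K_bounds
  rcases h with ⟨t, rfl⟩ | ⟨q, h, rfl⟩
  · have := cPos_twin_bounds t; omega
  · rcases sCol_twin_bounds q h with h1 | h1 <;> omega

theorem ColBase.not_succ {a : ℕ} (h : ColBase a) : ¬ ColBase (a + 1) := by
  have := K_bounds
  rintro (⟨t', e⟩ | ⟨q', h', e⟩) <;> rcases h with ⟨t, rfl⟩ | ⟨q, h, rfl⟩
  · have := cPos_twin_bounds t; have := cPos_twin_bounds t'; omega
  · have := cPos_twin_bounds t'; rcases sCol_twin_bounds q h with h1 | h1 <;> omega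
  · have := cPos_twin_bounds t; rcases sCol_twin_bounds q' h' with h1 | h1 <;> omega
  · rcases sCol_twin_bounds q h with h1 | h1 <;> rcases sCol_twin_bounds q' h' with h2 | h2 <;> omega

theorem RowBase.bounds {b : ℕ} (h : RowBase b) : 4 ≤ b ∧ b + 2 < K := by
  have := K_bounds
  obtain ⟨t, rfl⟩ := h
  have := cPos_twin_bounds t
  omega

theorem RowBase.not_succ {b : ℕ} (h : RowBase b) : ¬ RowBase (b + 1) := by
  obtain ⟨t, rfl⟩ := h
  rintro ⟨t', e⟩
  have := cPos_twin_bounds t
  have := cPos_twin_bounds t'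
  omega

theorem colBase_of_cPos {a : ℕ} (t : DI) (k : Fin 2) (e : a = cPos t k) :
    ColBase a ∨ (1 ≤ a ∧ ColBase (a - 1)) := by
  fin_cases k
  · exact Or.inl (Or.inl ⟨t, e⟩)
  · simp only [Fin.mk_one, cPos_one] at e
    exact Or.inr ⟨by omega, Or.inl ⟨t, by omega⟩⟩

theorem rowBase_of_cPos {a : ℕ} (t : DI) (k : Fin 2) (e : a = cPos t k) :
    RowBase a ∨ (1 ≤ a ∧ RowBase (a - 1)) := by
  fin_cases k
  · exact Or.inl ⟨t, e⟩
  · simp only [Fin.mk_one, cPos_one] at e
    exact Or.inr ⟨by omega, t, by omega⟩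

theorem colBase_of_sCol {a : ℕ} (q : Sg) (h k : Fin 2) (e : a = sCol q h k) :
    ColBase a ∨ (1 ≤ a ∧ ColBase (a - 1)) := by
  fin_cases k
  · exact Or.inl (Or.inr ⟨q, h, e⟩)
  · simp only [Fin.mk_one, sCol_one] at e
    exact Or.inr ⟨by omega, Or.inr ⟨q, h, by omega⟩⟩

theorem shown_pair {a : ℕ} (h : ColBase a) (T : Tile) (s : Fin 4) :
    shown T s a = shown T s (a + 1) := by
  unfold shown
  classical
  rw [decide_eq_decide]
  constructor
  · rintro ⟨t, k, e, hb⟩
    fin_cases k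
    · exact ⟨t, 1, by rw [cPos_one]; simp at e; omega, hb⟩
    · exfalso
      simp only [Fin.mk_one, cPos_one] at e
      exact ColBase.not_succ (a := cPos t 0) (Or.inl ⟨t, rfl⟩) (e ▸ h)
  · rintro ⟨t, k, e, hb⟩
    fin_cases k
    · exfalso
      exact h.not_succ (Or.inl ⟨t, e⟩)
    · simp only [Fin.mk_one, cPos_one] at e
      exact ⟨t, 0, by omega, hb⟩

theorem bus_pair {a : ℕ} (h : ColBase a) (P : Sg → Bool) :
    (∃ q h' k, a = sCol q h' k ∧ P q = true) ↔ ∃ q h' k, a + 1 = sCol q h' k ∧ P q = true := by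
  constructor
  · rintro ⟨q, h', k, e, hb⟩
    fin_cases k
    · exact ⟨q, h', 1, by rw [sCol_one]; simp at e; omega, hb⟩
    · exfalso
      simp only [Fin.mk_one, sCol_one] at e
      exact ColBase.not_succ (a := sCol q h' 0) (Or.inr ⟨q, h', rfl⟩) (e ▸ h)
  · rintro ⟨q, h', k, e, hb⟩
    fin_cases k
    · exfalso
      exact h.not_succ (Or.inr ⟨q, h', e⟩)
    · simp only [Fin.mk_one, sCol_one] at e
      exact ⟨q, h', 0, by omega, hb⟩

theorem RowBase.colBase {b : ℕ} (h : RowBase b) : ColBase b := Or.inl h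

/-! ### Geometry near the band -/

theorem geoH_band_left {M p q q' : ℕ} (hM : 4 * K ≤ M) (hp : p ≤ 2 * M)
    (hpB : p + K + 1 ≤ M ∨ M + K + 1 ≤ p)
    (hq : M ≤ q + K ∧ q < M + K) (hq' : M ≤ q' + K ∧ q' < M + K)
    (hside : M ≤ q ↔ M ≤ q') : geoH M p q = geoH M p q' := by
  have := K_bounds
  unfold geoH
  by_cases h0 : p = 0 ∨ p = 2 * M
  · rw [if_pos h0, if_pos h0, if_neg (show ¬ q = 0 by omega), if_neg (show ¬ q' = 0 by omega),
      if_neg (show ¬ q + 1 = 2 * M by omega), if_neg (show ¬ q' + 1 = 2 * M by omega)]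
    congr 1
    exact if_congr (by omega) rfl rfl
  · have e1 : ∀ x : ℕ, M ≤ x + K → x < M + K →
        ¬ x < min (min p (2 * M - p)) (2 * M - 1 - x) ∧
          ¬ 2 * M - 1 - x < min p (2 * M - p) := fun x h1 h2 => by omega
    have e2 : ∀ x : ℕ, ¬ (M ≤ p + K ∧ p ≤ M + K ∧ M ≤ x + K ∧ x < M + K) := fun x => by omega
    rw [if_neg h0, if_neg h0, if_neg (e2 q), if_neg (e1 q hq.1 hq.2).1,
      if_neg (e1 q hq.1 hq.2).2, if_neg (e2 q'), if_neg (e1 q' hq'.1 hq'.2).1,
      if_neg (e1 q' hq'.1 hq'.2).2]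
    simp only [hside]

theorem geoH_band_right {M p q q' : ℕ} (hM : 4 * K ≤ M) (hp : p < 2 * M)
    (hpB : p + K + 1 ≤ M ∨ M + K + 1 ≤ p)
    (hq : M ≤ q + K ∧ q ≤ M + K) (hq' : M ≤ q' + K ∧ q' ≤ M + K)
    (hside : M < q ↔ M < q') : geoH M q p = geoH M q' p := by
  have := K_bounds
  unfold geoH
  rw [if_neg (by omega), if_neg (by omega), if_neg (show ¬ (q' = 0 ∨ q' = 2 * M) by omega),
    if_neg (show ¬ (M ≤ q' + K ∧ q' ≤ M + K ∧ M ≤ p + K ∧ p < M + K) by omega)]
  rcases hpB with h | h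
  · rw [if_pos (by omega), if_pos (by omega)]
    simp only [hside]
  · rw [if_neg (by omega), if_pos (by omega), if_neg (by omega), if_pos (by omega)]
    simp only [hside]

/-! ### The blockCells of a pair are equal -/

variable (f : (Sg → Bool) → Bool)

/-- The two blockCells of a pair of columns. -/
theorem child_col_pair {M : ℕ} (hM : 4 * K ≤ M) {T : Tile} (hT : Untagged T) {i j : ℕ}
    (hi : M ≤ i + K) (hb : ColBase (i + K - M)) (hj : j < 2 * M) (hjB : ¬ Band M j) :
    child f M T i j = child f M T (i + 1) j := by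
  have := K_bounds
  have hbd := hb.bounds
  unfold Band at hjB
  obtain ⟨⟨hlA, hlB⟩, ⟨hrA, hrB⟩, ⟨hdA, hdB⟩, ⟨huA, huB⟩⟩ := hT.sides
  have e : i + 1 + K - M = (i + K - M) + 1 := by omega
  have hH : ∀ x y, i ≤ x → x ≤ i + 2 → i ≤ y → y ≤ i + 2 →
      fillH f M T x j = fillH f M T y j := by
    intro x y hx hx' hy hy'
    have e1 : x ≤ M ↔ y ≤ M := by omega
    funext h
    cases h <;> simp only [fillH]
    case Mk => simp only [e1]
    case MD =>
      by_cases hm : M + K ≤ j + 1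
      · simp [hm, show x ≤ j by omega, show y ≤ j by omega, show M < x ↔ M < y by omega]
      · simp [hm]
    case MU =>
      by_cases hm : M + K ≤ j + 1
      · simp [hm, show x ≤ j by omega, show y ≤ j by omega, show M < x ↔ M < y by omega]
      · simp [hm]
    all_goals simp [show ¬ (M ≤ j + K ∧ j < M + K) by omega]
  have hV : ∀ jj, (jj + K ≤ M ∨ M + K < jj) →
      fillV f M T i jj = fillV f M T (i + 1) jj := by
    intro jj hjj
    funext h
    cases h <;> simp only [fillV]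
    case C =>
      simp only [e, shown_pair hb]
      simp [show (M ≤ i + K ∧ i < M + K) by omega, show (M ≤ i + 1 + K ∧ i + 1 < M + K) by omega]
    case Mk => simp [show ¬ (M + K ≤ i + 1) by omega, show ¬ (M + K ≤ i + 1 + 1) by omega]
    case Bus =>
      simp only [e, bus_pair hb]
      simp [show (M ≤ i + K ∧ i < M + K) by omega, show (M ≤ i + 1 + K ∧ i + 1 < M + K) by omega]
    case S =>
      simp [show ¬ i = M by omega, show ¬ i + 1 = M by omega]
    case A => simp [hdA, huA]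
    case B => simp [hdB, huB]
    all_goals simp [show ¬ (M < jj + K ∧ jj < M + K) by omega]
  have gH : ∀ x y, i ≤ x → x ≤ i + 2 → i ≤ y → y ≤ i + 2 → geoH M x j = geoH M y j := by
    intro x y hx hx' hy hy'
    exact geoH_band_right hM hj (by omega) (by omega) (by omega) (by omega)
  have gV : ∀ jj, jj ≤ 2 * M → (jj + K + 1 ≤ M ∨ M + K + 1 ≤ jj) →
      geoV M i jj = geoV M (i + 1) jj := fun jj h1 h2 => by
    unfold geoV
    rw [geoH_band_left hM h1 h2 (q := i) (q' := i + 1) (by omega) (by omega) (by omega)]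
  simp only [child, Tile.mk.injEq]
  refine ⟨?_, ?_, ?_, ?_⟩
  · rw [gH i (i + 1) le_rfl (by omega) (by omega) (by omega),
      hH i (i + 1) le_rfl (by omega) (by omega) (by omega)]
  · rw [gH (i + 1) (i + 1 + 1) (by omega) (by omega) (by omega) (by omega),
      hH (i + 1) (i + 1 + 1) (by omega) (by omega) (by omega) (by omega)]
  · rw [gV j (by omega) (by omega), hV j (by omega)]
  · rw [gV (j + 1) (by omega) (by omega), hV (j + 1) (by omega)]

/-- The two blockCells of a pair of rows. -/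
theorem child_row_pair {M : ℕ} (hM : 4 * K ≤ M) {T : Tile} (hT : Untagged T) {i j : ℕ}
    (hj : M ≤ j + K) (hb : RowBase (j + K - M)) (hi : i < 2 * M) (hiB : ¬ Band M i) :
    child f M T i j = child f M T i (j + 1) := by
  have := K_bounds
  have hbd := hb.bounds
  unfold Band at hiB
  obtain ⟨⟨hlA, hlB⟩, ⟨hrA, hrB⟩, ⟨hdA, hdB⟩, ⟨huA, huB⟩⟩ := hT.sides
  have e : j + 1 + K - M = (j + K - M) + 1 := by omega
  have hH : ∀ x, (x + K ≤ M ∨ M + K < x) →
      fillH f M T x j = fillH f M T x (j + 1) := by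
    intro x hx
    funext h
    cases h <;> simp only [fillH]
    case C =>
      simp only [e, shown_pair hb.colBase]
      simp [show (M ≤ j + K ∧ j < M + K) by omega, show (M ≤ j + 1 + K ∧ j + 1 < M + K) by omega]
    case A => simp [hlA, hrA]
    case B => simp [hlB, hrB]
    case Mk => simp [show ¬ (M + K ≤ j + 1) by omega, show ¬ (M + K ≤ j + 1 + 1) by omega]
    case MD => simp [show ¬ (M + K ≤ j + 1) by omega, show ¬ (M + K ≤ j + 1 + 1) by omega]
    case MU => simp [show ¬ (M + K ≤ j + 1) by omega, show ¬ (M + K ≤ j + 1 + 1) by omega]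
    all_goals simp [show ¬ (M < x + K ∧ x < M + K) by omega]
  have hV : ∀ x y, j ≤ x → x ≤ j + 2 → j ≤ y → y ≤ j + 2 →
      fillV f M T i x = fillV f M T i y := by
    intro x y hx hx' hy hy'
    have e1 : (M + K ≤ i + 1 ∧ x ≤ i) ↔ (M + K ≤ i + 1 ∧ y ≤ i) := by omega
    funext h
    cases h <;> simp only [fillV]
    case Mk =>
      by_cases hm : M + K ≤ i + 1
      · simp [show x ≤ i by omega, show y ≤ i by omega]
      · simp [hm]
    case S => simp [show ¬ i = M by omega]
    all_goals simp [show ¬ (M ≤ i + K ∧ i < M + K) by omega]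
  have gH : ∀ x, x ≤ 2 * M → (x + K + 1 ≤ M ∨ M + K + 1 ≤ x) →
      geoH M x j = geoH M x (j + 1) := fun x h1 h2 =>
    geoH_band_left hM h1 h2 (by omega) (by omega) (by omega)
  have gV : ∀ x y, j ≤ x → x ≤ j + 2 → j ≤ y → y ≤ j + 2 → geoV M i x = geoV M i y := by
    intro x y hx hx' hy hy'
    unfold geoV
    rw [geoH_band_right hM hi (q := x) (q' := y) (by omega) (by omega) (by omega) (by omega)]
  simp only [child, Tile.mk.injEq]
  refine ⟨?_, ?_, ?_, ?_⟩
  · rw [gH i (by omega) (by omega), hH i (by omega)]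
  · rw [gH (i + 1) (by omega) (by omega), hH (i + 1) (by omega)]
  · rw [gV j (j + 1) le_rfl (by omega) (by omega) (by omega),
      hV j (j + 1) le_rfl (by omega) (by omega) (by omega)]
  · rw [gV (j + 1) (j + 1 + 1) (by omega) (by omega) (by omega) (by omega),
      hV (j + 1) (j + 1 + 1) (by omega) (by omega) (by omega) (by omega)]

end Vale.Agent.P196.Full.Tiles
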